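import Vale.Agent.P113.Main

open Vale.Agent.P113 in
theorem Vale.Agent.Results.P113.A0_Full.result :
    ∀ ν : ℝ, 0 < ν → IsComputableReal ν → HaltingDetection ν :=
  haltingDetection
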