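import Vale.Agent.Results.P113.A0_Full

open Vale.Agent.P113 Set in
open scoped ContDiff in
theorem Vale.Agent.Results.P113.A1_Explicit.result : ∀ ν : ℝ, 0 < ν → IsComputableReal ν →
    ∃ (a : E3) (O : Set E3) (T0 : ℝ) (f : Machine → List ℕ → ℝ → E3 → E3)
      (compiler : Machine × List ℕ → Nat.Partrec.Code),
      IsOpen O ∧ (∀ (x : E3) (k : Fin 3), x + Pi.single k 1 ∈ O ↔ x ∈ O) ∧ 0 ≤ T0 ∧
      Computable compiler ∧
      (∀ M w, IsSmoothForce (f M w) ∧ IsProgramFor (compiler (M, w)) (f M w)) ∧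
      (∀ M, ∃ P : ℝ, 0 < P ∧ ∀ w t x, T0 ≤ t → f M w (t + P) x = f M w t x) ∧
      (∀ M w w' t x, T0 ≤ t → f M w t x = f M w' t x) ∧
      ∀ M w, ∃ (u : ℝ → E3 → E3) (p : ℝ → E3 → ℝ),
        ContDiff ℝ ∞ (fun z : ℝ × E3 => u z.1 z.2) ∧ ContDiff ℝ ∞ (fun z : ℝ × E3 => p z.1 z.2) ∧
        (∀ T, 0 < T → IsClassicalSol ν (f M w) T u p) ∧
        (∀ T, 0 < T → ∀ v π, IsClassicalSol ν (f M w) T v π →
          ∀ t ∈ Icc (0 : ℝ) T, v t = u t ∧ π t = p t) ∧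
        ∃ X : ℝ → E3, IsTrajectory u a X ∧
          (∀ X', IsTrajectory u a X' → ∀ t, 0 ≤ t → X' t = X t) ∧
          ((∃ t, 0 ≤ t ∧ X t ∈ O) ↔ Halts M w) :=
  fun ν h1 h2 => Vale.Agent.Results.P113.A0_Full.result ν h1 h2
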