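import Vale.Agent.P113.Stage1

open Vale.Agent.P113 Set in
open scoped ContDiff in
theorem Vale.Agent.Results.P113.B1_Stage1.result : ∀ ν : ℝ, 0 < ν →
    ∃ (a : E3) (O : Set E3) (κ : ℝ → ℝ) (F : ℝ → E3 → E3)
      (amp : Machine × List ℕ → ℕ × ℕ × ℕ),
      IsOpen O ∧ (∀ (x : E3) (k : Fin 3), x + Pi.single k 1 ∈ O ↔ x ∈ O) ∧
      Computable amp ∧ ContDiff ℝ ∞ κ ∧ (∀ t, 1 ≤ t → κ t = 0) ∧ IsSmoothForce F ∧
      (∃ P : ℝ, 0 < P ∧ ∀ t x, F (t + P) x = F t x) ∧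
      ∀ M w, ∃ (u : ℝ → E3 → E3) (p : ℝ → E3 → ℝ),
        ContDiff ℝ ∞ (fun z : ℝ × E3 => u z.1 z.2) ∧ ContDiff ℝ ∞ (fun z : ℝ × E3 => p z.1 z.2) ∧
        (∀ T, 0 < T → IsClassicalSol ν
          (fun t x => (κ t * qv (amp (M, w))) • (Pi.single 0 1 : E3) + F t x) T u p) ∧
        (∀ T, 0 < T → ∀ v π, IsClassicalSol ν
          (fun t x => (κ t * qv (amp (M, w))) • (Pi.single 0 1 : E3) + F t x) T v π →
          ∀ t ∈ Icc (0 : ℝ) T, v t = u t ∧ π t = p t) ∧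
        ∃ X : ℝ → E3, IsTrajectory u a X ∧
          (∀ X', IsTrajectory u a X' → ∀ t, 0 ≤ t → X' t = X t) ∧
          ((∃ t, 0 ≤ t ∧ X t ∈ O) ↔ Halts M w) :=
  stage1
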